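import Mathlib

/-!
P166: the variational formula of the limiting pressure, stated from scratch.

For a grid of `n + 1` steps above the support, the spectrum is a shift plus equal steps on nested
coordinate sets of relative sizes `γ k`. The value of the grid is the shift, a supremum over
self-overlaps of the infimum over paths of a Parisi recursion plus an entropy, and a closed term.
-/

open MeasureTheory ProbabilityTheory Finset Matrix
open scoped MatrixOrder

namespace Vale.Agent.P166.Statement

variable {d : ℕ}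

/-- Standard Gaussian vectors. -/
noncomputable def gauss (d : ℕ) : Measure (Fin d → ℝ) := Measure.pi fun _ => gaussianReal 0 1

/-- The Gaussian vector of covariance `C` built from a standard one. -/
noncomputable def field (C : Matrix (Fin d) (Fin d) ℝ) (g : Fin d → ℝ) : Fin d → ℝ :=
  CFC.sqrt C *ᵥ g

/-- One Gaussian step: `m⁻¹ log E exp (m F (h + field C g))`. -/
noncomputable def gaussStep (m : ℝ) (C : Matrix (Fin d) (Fin d) ℝ) (F : (Fin d → ℝ) → ℝ)
    (h : Fin d → ℝ) : ℝ :=
  m⁻¹ * Real.log (∫ g, Real.exp (m * F (h + field C g)) ∂gauss d)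

/-- The composite of the steps, the last one innermost. -/
noncomputable def parisi (F : (Fin d → ℝ) → ℝ) :
    (r : ℕ) → (Fin r → ℝ) → (Fin r → Matrix (Fin d) (Fin d) ℝ) → (Fin d → ℝ) → ℝ
  | 0, _, _ => F
  | r + 1, m, C => gaussStep (m 0) (C 0) (parisi F r (fun l => m l.succ) fun l => C l.succ)

/-- The value of one row along the path `Q` with self-overlap `D`. -/
noncomputable def rowValue (f : (Fin d → ℝ) → ℝ) (r : ℕ) (D : Matrix (Fin d) (Fin d) ℝ)
    (Q : ℕ → Matrix (Fin d) (Fin d) ℝ) : ℝ :=
  ∫ z, parisi (gaussStep 1 (D - Q r) f) r (fun l => ((l : ℕ) + 1) / ((r : ℝ) + 1))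
    (fun l => Q ((l : ℕ) + 1) - Q l) (field (Q 0) z) ∂gauss d

/-- A nonempty set of components above all the others. -/
def IsLevelSet (γ : Fin d → ℝ) (t : Finset (Fin d)) : Prop :=
  t.Nonempty ∧ ∀ k ∈ t, ∀ l ∉ t, γ l < γ k

/-- The fraction of the coordinates lying in exactly the components of `t`. -/
noncomputable def share (γ : Fin d → ℝ) (t : Finset (Fin d)) : ℝ :=
  max 0 (t.fold min 1 γ - tᶜ.fold max 0 γ)

/-- The selection of the components of `t`. -/
def sel (t : Finset (Fin d)) : Matrix (Fin t.card) (Fin d) ℝ :=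
  (1 : Matrix (Fin d) (Fin d) ℝ).submatrix (t.orderEmbOfFin rfl) id

/-- The sum over the sets, weighted by their shares, of matrices on their components. -/
noncomputable def combine (γ : Fin d → ℝ)
    (X : (t : Finset (Fin d)) → Matrix (Fin t.card) (Fin t.card) ℝ) : Matrix (Fin d) (Fin d) ℝ :=
  ∑ t, share γ t • ((sel t)ᵀ * X t * sel t)

/-- The tail of an overlap path seen from a level. -/
noncomputable def tailMat {p : ℕ} (r : ℕ) (D : Matrix (Fin p) (Fin p) ℝ)
    (q : ℕ → Matrix (Fin p) (Fin p) ℝ) (l : ℕ) : Matrix (Fin p) (Fin p) ℝ :=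
  D - q r + ∑ j ∈ Ico l r, (((j : ℝ) + 1) / ((r : ℝ) + 1)) • (q (j + 1) - q j)

/-- The entropy of an overlap path. -/
noncomputable def entropy {p : ℕ} (r : ℕ) (D : Matrix (Fin p) (Fin p) ℝ)
    (q : ℕ → Matrix (Fin p) (Fin p) ℝ) : ℝ :=
  1 / 2 * (Real.log (tailMat r D q r).det + (q 0 * (tailMat r D q 0)⁻¹).trace + p
    + ∑ l ∈ range r, ((r : ℝ) + 1) / ((l : ℝ) + 1) *
        (Real.log (tailMat r D q l).det - Real.log (tailMat r D q (l + 1)).det))

/-- Increasing paths of positive matrices strictly below the self-overlaps, on the level sets. -/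
def Admissible (γ : Fin d → ℝ) (X : (t : Finset (Fin d)) → Matrix (Fin t.card) (Fin t.card) ℝ)
    (r : ℕ) (q : (t : Finset (Fin d)) → ℕ → Matrix (Fin t.card) (Fin t.card) ℝ) : Prop :=
  ∀ t, IsLevelSet γ t →
    (q t 0).PosSemidef ∧ (∀ l < r, (q t (l + 1) - q t l).PosSemidef) ∧ (X t - q t r).PosDef

/-- The values of all depths and admissible paths at given self-overlaps. -/
noncomputable def pathValues (f : (Fin d → ℝ) → ℝ) (γ : Fin d → ℝ)
    (X : (t : Finset (Fin d)) → Matrix (Fin t.card) (Fin t.card) ℝ) : Set ℝ :=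
  {v | ∃ r q, Admissible γ X r q ∧ v = rowValue f r (combine γ X) (fun l => combine γ fun t => q t l)
    + ∑ t, share γ t * entropy r (X t) (q t)}

/-- Supremum over definite self-overlaps of the infimum over paths. -/
noncomputable def supInfValue (f : (Fin d → ℝ) → ℝ) (γ : Fin d → ℝ) : ℝ :=
  sSup ((fun X => sInf (pathValues f γ X)) '' {X | ∀ t, IsLevelSet γ t → (X t).PosDef})

/-- The potential of the coupled fields. -/
noncomputable def coupledPot (c : ℝ) (y : Fin d → ℝ) : ℝ :=
  Real.log (Real.cosh (∑ k, c * y k)) - ∑ k, c * y k ^ 2 / 2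

/-- The mass of the law above the grid point `a + k h`, `h = (b - a + 1) / (n + 1)`. -/
noncomputable def massAbove (μ : Measure ℝ) (a b : ℝ) (n k : ℕ) : ℝ :=
  μ.real (Set.Ioi (a + (k : ℝ) * ((b - a + 1) / (n + 1))))

/-- The grid points with mass on both sides. -/
noncomputable def innerPoints (μ : Measure ℝ) (a b : ℝ) (n : ℕ) : Finset ℕ := by
  classical exact (range (n + 1)).filter fun k =>
    0 < massAbove μ a b n k ∧ massAbove μ a b n k < 1

/-- The number of grid points below the whole law. -/
noncomputable def pointsBelow (μ : Measure ℝ) (a b : ℝ) (n : ℕ) : ℕ := by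
  classical exact ((range (n + 1)).filter fun k => massAbove μ a b n k = 1).card

/-- The value of the grid of `n + 1` steps of size `h = (b - a + 1) / (n + 1)`. -/
noncomputable def gridValue (μ : Measure ℝ) (a b β : ℝ) (n : ℕ) : ℝ :=
  let c := β * ((b - a + 1) / (n + 1))
  let γ : Fin (innerPoints μ a b n).card → ℝ :=
    fun k => massAbove μ a b n ((innerPoints μ a b n).orderEmbOfFin rfl k)
  β * (a + (b - a + 1) / (n + 1) * pointsBelow μ a b n) / 2 + supInfValue (coupledPot c) γ +
    ∑ k, (γ k / 2 * Real.log c - γ k / 2 - (1 - γ k) / 2 * Real.log (1 - γ k))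

end Vale.Agent.P166.Statement
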