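import Vale.Agent.P166.Main.Final
import Vale.Agent.P166.Statement.Defs

/-!
P166: the stated formula is the one that was proved.
-/

open MeasureTheory ProbabilityTheory Filter Topology Finset Real
open Matrix hiding comp
open scoped MatrixOrder

namespace Vale.Agent.P166.Statement

open Vale.Agent.P166 Vale.Agent.P166.Pen Vale.Agent.P166.Formula Vale.Agent.P166.Main
open Vale.Agent.P166.Casc (comp comp_mem exists_comp)
open Vale.Agent.P150.Fast.Dom (arrMap arrMap_apply)
open Vale.Agent.P157.Casc (casc gaus mlev)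

variable {d : ℕ} {γ : Fin d → ℝ}

theorem arrMap_facOf (C : Matrix (Fin d) (Fin d) ℝ) (g : Fin d → ℝ) :
    arrMap (facOf C) g = field C g := by
  funext k
  simp [arrMap_apply, facOf, field, Matrix.mulVec, dotProduct]

theorem gaussStep_one (C : Matrix (Fin d) (Fin d) ℝ) (f : (Fin d → ℝ) → ℝ) (h : Fin d → ℝ) :
    rowLeaf f (facOf C) h = gaussStep 1 C f h := by
  simp only [rowLeaf, gaussStep, inv_one, one_mul, arrMap_facOf]
  rfl

theorem casc_eq_parisi (F : (Fin d → ℝ) → ℝ) : ∀ (r : ℕ) (m : Fin r → ℝ)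
    (C : Fin r → Matrix (Fin d) (Fin d) ℝ) (h : Fin d → ℝ),
    casc (gaus (Fin d)) r m (fun y => F (rowFld (fun l => facOf (C l)) h y)) = parisi F r m C h := by
  intro r
  induction r with
  | zero => intro m C h; simp [casc, parisi, rowFld]
  | succ r ih =>
    intro m C h
    rw [casc_fld_succ m (fun l => facOf (C l)) F h]
    simp only [parisi, gaussStep, arrMap_facOf, ih (fun l => m l.succ) fun l => C l.succ]
    rfl

theorem rowValue_eq (f : (Fin d → ℝ) → ℝ) (r : ℕ) (D : Matrix (Fin d) (Fin d) ℝ)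
    (Q : ℕ → Matrix (Fin d) (Fin d) ℝ) : rowValue f r D Q = rowVal f r D Q := by
  have hF : rowLeaf f (facOf (D - Q r)) = gaussStep 1 (D - Q r) f := funext (gaussStep_one _ f)
  simp only [rowVal, rowCasc, rowValue, hF, arrMap_facOf,
    casc_eq_parisi _ r (mlev r) fun l => Q ((l : ℕ) + 1) - Q l]
  rfl

theorem tailMat_eq {p : ℕ} (r : ℕ) (D : Matrix (Fin p) (Fin p) ℝ)
    (q : ℕ → Matrix (Fin p) (Fin p) ℝ) : ∀ {l}, l ≤ r → tailMat r D q l = tT (gridM r) r D q l := by
  intro l hl
  induction hl using Nat.decreasingInduction with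
  | self => simp [tailMat, tT_top (gridM_levels r)]
  | of_succ j hj ih =>
    rw [tT_step D q hj, ← ih, tailMat, tailMat, ← Finset.insert_Ico_add_one_left_eq_Ico hj,
      Finset.sum_insert (by simp)]
    simp only [gridM]
    push_cast
    abel

theorem entropy_eq {p : ℕ} (r : ℕ) (D : Matrix (Fin p) (Fin p) ℝ)
    (q : ℕ → Matrix (Fin p) (Fin p) ℝ) : entropy r D q = flatEnt r D q := by
  simp only [entropy, flatEnt, levelSum]
  rw [tailMat_eq r D q le_rfl, tailMat_eq r D q (Nat.zero_le r)]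
  have e : ∑ l ∈ range r, ((r : ℝ) + 1) / ((l : ℝ) + 1) *
      (log (tailMat r D q l).det - log (tailMat r D q (l + 1)).det)
      = -∑ l ∈ range r, (gridM r (l + 1))⁻¹ *
        (log (tT (gridM r) r D q (l + 1)).det - log (tT (gridM r) r D q l).det) := by
    rw [← Finset.sum_neg_distrib]
    refine Finset.sum_congr rfl fun l hl => ?_
    have hl' := Finset.mem_range.1 hl
    rw [tailMat_eq r D q hl'.le, tailMat_eq r D q hl', gridM]
    push_cast
    rw [inv_div]
    ring
  rw [e]
  ring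

theorem pathValues_eq (hγ : ∀ k, 0 < γ k ∧ γ k ≤ 1) (f : (Fin d → ℝ) → ℝ) {dd : OIdx d → ℝ}
    (hd : Clean γ dd) :
    pathValues f γ (typD γ dd) = {v | ∃ r q, Formula.Adm γ dd r q ∧ v = flatPath f γ dd r q} := by
  have hval : ∀ r (q : TPath d), rowValue f r (combine γ (typD γ dd))
      (fun l => combine γ fun t => q t l) + ∑ t, share γ t * entropy r (typD γ dd t) (q t)
      = flatPath f γ dd r q := fun r q => by
    have h1 : combine γ (typD γ dd) = dTot dd := (dTot_eq hγ hd).symm
    have h2 : (fun l => combine γ fun t => q t l) = qTot γ q := rfl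
    simp only [h1, h2, rowValue_eq, entropy_eq, flatPath]
    rfl
  ext v
  refine ⟨?_, ?_⟩
  · rintro ⟨r, q, hq, rfl⟩
    exact ⟨r, q, ⟨fun t ht => ⟨(hq t ht).1, (hq t ht).2.1⟩, fun t ht => (hq t ht).2.2⟩, hval r q⟩
  · rintro ⟨r, q, hq, rfl⟩
    exact ⟨r, q, fun t ht => ⟨(hq.path t ht).nonneg, (hq.path t ht).step, hq.top t ht⟩,
      (hval r q).symm⟩

/-- The stored values only see the self-overlaps of the level sets. -/
theorem pathValues_congr (hγ : ∀ k, 0 < γ k ∧ γ k ≤ 1) (f : (Fin d → ℝ) → ℝ)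
    {X Y : (t : Finset (Fin d)) → Matrix (Fin t.card) (Fin t.card) ℝ}
    (h : ∀ t, IsLevelSet γ t → X t = Y t) : pathValues f γ X = pathValues f γ Y := by
  have h0 : ∀ t, share γ t ≠ 0 → X t = Y t := fun t ht => by
    by_cases ho : IsLevelSet γ t
    · exact h t ho
    rcases t.eq_empty_or_nonempty with rfl | hne
    · exact Matrix.ext fun b => absurd b.isLt (by simp)
    · exact absurd (tfrac_eq_zero hγ hne ho) ht
  have hc : combine γ X = combine γ Y := Finset.sum_congr rfl fun t _ => by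
    rcases eq_or_ne (share γ t) 0 with ht | ht
    · simp [ht]
    · rw [h0 t ht]
  have he : ∀ (r : ℕ) (q : TPath d), ∑ t, share γ t * entropy r (X t) (q t) = ∑ t, share γ t * entropy r (Y t) (q t) :=
    fun r q => Finset.sum_congr rfl fun t _ => by
      rcases eq_or_ne (share γ t) 0 with ht | ht
      · simp [ht]
      · rw [h0 t ht]
  ext v
  simp only [pathValues, Set.mem_setOf_eq, hc, he]
  refine exists_congr fun r => exists_congr fun q => and_congr_left fun _ => ?_
  exact forall_congr' fun t => imp_congr_right fun ht => by rw [h t ht]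

/-- The self-overlaps of a family of definite matrices on the level sets. -/
theorem exists_centre (hγ : ∀ k, 0 < γ k ∧ γ k ≤ 1)
    {X : (t : Finset (Fin d)) → Matrix (Fin t.card) (Fin t.card) ℝ}
    (hX : ∀ t, IsLevelSet γ t → (X t).PosDef) :
    ∃ dd ∈ centres γ, ∀ t, IsLevelSet γ t → typD γ dd t = X t := by
  classical
  set dd : OIdx d → ℝ := fun i =>
    if Occupied γ i.1 then tfrac γ i.1 * Formula.liftM i.1 (X i.1) i.2.1 i.2.2 else 0 with hdd
  have hcl : Clean γ dd := by
    refine ⟨fun t k l => ?_, fun t k l h => ?_⟩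
    · simp only [hdd]
      split_ifs with ho
      · have hs := (liftM_psd (hX t ho).posSemidef).isHermitian.apply k l
        simp only [star_trivial] at hs
        rw [hs]
      · rfl
    · simp only [hdd]
      split_ifs with ho
      · have h' : ¬(k ∈ t ∧ l ∈ t) := fun h' => h ⟨ho, h'⟩
        refine mul_eq_zero_of_right _ ?_
        rw [liftM_apply]
        exact Finset.sum_eq_zero fun b _ => Finset.sum_eq_zero fun b' _ =>
          if_neg fun e : comp t b = k ∧ comp t b' = l =>
            h' ⟨e.1 ▸ comp_mem t b, e.2 ▸ comp_mem t b'⟩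
      · rfl
  have htyp : ∀ t, IsLevelSet γ t → typD γ dd t = X t := fun t ht => by
    ext b b'
    simp only [typD, tmat, Matrix.smul_apply, Matrix.of_apply, smul_eq_mul, hdd]
    rw [if_pos (show Occupied γ t from ht), liftM_apply_comp, ← mul_assoc,
      inv_mul_cancel₀ (tfrac_pos hγ ht).ne', one_mul]
  -- a common lower bound for the quadratic forms
  have hmin : ∀ t, ∃ c : ℝ, 0 < c ∧ (Occupied γ t → ∀ x : Fin t.card → ℝ,
      c * ∑ b, x b ^ 2 ≤ x ⬝ᵥ X t *ᵥ x) := fun t => by
    by_cases ho : Occupied γ t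
    · obtain ⟨U, e, hUU, hUU', heq, he, -⟩ := exists_diag (hX t ho)
      rcases isEmpty_or_nonempty (Fin t.card) with hn | hn
      · exact ⟨1, one_pos, fun _ x => by simp⟩
      refine ⟨univ.inf' univ_nonempty e, (Finset.lt_inf'_iff _).2 fun j _ => he j, fun _ x => ?_⟩
      set y := Uᵀ *ᵥ x
      have hq : x ⬝ᵥ X t *ᵥ x = ∑ j, e j * y j ^ 2 := by
        rw [heq, ← Matrix.mulVec_mulVec, ← Matrix.mulVec_mulVec, Matrix.dotProduct_mulVec,
          ← Matrix.mulVec_transpose]
        simp only [dotProduct, Matrix.mulVec_diagonal, y]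
        exact Finset.sum_congr rfl fun j _ => by ring
      have hn2 : ∑ b, x b ^ 2 = ∑ j, y j ^ 2 := by
        have h1 : y ⬝ᵥ y = x ⬝ᵥ x := by
          simp only [y]
          rw [Matrix.dotProduct_mulVec, Matrix.vecMul_transpose, Matrix.mulVec_mulVec, hUU',
            Matrix.one_mulVec]
        simpa [dotProduct, pow_two] using h1.symm
      rw [hq, hn2, Finset.mul_sum]
      exact Finset.sum_le_sum fun j _ =>
        mul_le_mul_of_nonneg_right (Finset.inf'_le _ (mem_univ j)) (sq_nonneg _)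
    · exact ⟨1, one_pos, fun h => absurd h ho⟩
  choose c hc hq using hmin
  set s : Finset (Fin d) → ℝ := fun t => if Occupied γ t then tfrac γ t * c t else 1
  have hs : ∀ t, 0 < s t := fun t => by
    simp only [s]
    split_ifs with ho
    · exact mul_pos (tfrac_pos hγ ho) (hc t)
    · exact one_pos
  refine ⟨dd, ⟨univ.inf' univ_nonempty s, ∑ i, |dd i|, (Finset.lt_inf'_iff _).2 fun t _ => hs t,
    hcl, fun i => Finset.single_le_sum (f := fun j => |dd j|) (fun j _ => abs_nonneg _) (mem_univ i),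
    fun t ht v hv => ?_⟩, htyp⟩
  set x : Fin t.card → ℝ := fun b => v (comp t b)
  have h1 : ∀ F : Fin d → ℝ, (∀ k ∉ t, F k = 0) → ∑ k, F k = ∑ b, F (comp t b) := fun F hF => by
    rw [← Casc.sum_comp_eq t F, ← Finset.sum_subset (Finset.subset_univ t) fun k _ hk => hF k hk]
  have h2 : ∑ k, ∑ l, v k * v l * dd (t, k, l) = tfrac γ t * (x ⬝ᵥ X t *ᵥ x) := by
    rw [h1 (fun k => ∑ l, v k * v l * dd (t, k, l)) fun k hk => by simp [hv k hk]]
    simp only [fun k => h1 (fun l => v k * v l * dd (t, k, l)) fun l hl => by simp [hv l hl]]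
    simp only [hdd, if_pos ht, liftM_apply_comp, dotProduct, Matrix.mulVec, Finset.mul_sum, x]
    exact Finset.sum_congr rfl fun b _ => Finset.sum_congr rfl fun b' _ => by ring
  rw [h2, h1 (fun k => v k ^ 2) fun k hk => by simp [hv k hk]]
  calc univ.inf' univ_nonempty s * ∑ b, x b ^ 2
      ≤ s t * ∑ b, x b ^ 2 := mul_le_mul_of_nonneg_right (Finset.inf'_le _ (mem_univ t))
        (Finset.sum_nonneg fun b _ => sq_nonneg _)
    _ = tfrac γ t * (c t * ∑ b, x b ^ 2) := by simp only [s, if_pos ht]; ring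
    _ ≤ tfrac γ t * (x ⬝ᵥ X t *ᵥ x) :=
        mul_le_mul_of_nonneg_left (hq t ht x) (tfrac_nonneg γ t)

theorem supInfValue_eq (hγ : ∀ k, 0 < γ k ∧ γ k ≤ 1) (f : (Fin d → ℝ) → ℝ) :
    supInfValue f γ = flatSup f γ := by
  unfold supInfValue flatSup
  congr 1
  ext v
  constructor
  · rintro ⟨X, hX, rfl⟩
    obtain ⟨dd, hdd, he⟩ := exists_centre hγ hX
    refine ⟨dd, hdd, ?_⟩
    obtain ⟨κ, L, -, hg⟩ := hdd
    simp only [flatVal]
    rw [← pathValues_eq hγ f hg.1, pathValues_congr hγ f he]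
  · rintro ⟨dd, ⟨κ, L, hκ, hg⟩, rfl⟩
    refine ⟨typD γ dd, fun t ht => posDef_typD hγ hκ hg ht, ?_⟩
    simp only [flatVal, pathValues_eq hγ f hg.1]

/-- The stated value of a grid is the one that was proved. -/
theorem gridValue_eq (μ : Measure ℝ) (a b β : ℝ) (n : ℕ) :
    gridValue μ a b β n = gridVal μ a b β n := by
  have hγ : ∀ k, 0 < frac μ a b n k ∧ frac μ a b n k ≤ 1 := fun k =>
    ⟨(frac_mem (μ := μ) (a := a) (b := b) n k).1, (frac_mem (μ := μ) (a := a) (b := b) n k).2.le⟩
  rw [gridVal, ← supInfValue_eq hγ]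
  rfl

end Vale.Agent.P166.Statement
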